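import Vale.Agent.P224.PO.R15s.Val
import Vale.Agent.P224.PO.LawO
import Vale.Agent.P224.PO.LawNumO
import Vale.Agent.P224.PO.Cst

/-!
The static certificate with slack in dimension 15: the pointwise inequality and the law with
its values kept.
-/

namespace Vale.Agent.P224.PO.R15s

open Vale.Agent.P224 Vale.Agent.P224.UE Vale.Agent.P224.POS Vale.Agent.P224.PO
open scoped RealInnerProductSpace

/-- **The pointwise inequality** with the resources and the slack. -/
theorem hpos_s {E : Type*} [NormedAddCommGroup E] [InnerProductSpace ℝ E] (e x N y w : E)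
    (he : ‖e‖ ^ 2 ≤ 25 / 36) (hx : ‖x‖ = 1) (hN : ‖N‖ = 1) (hy : ‖y‖ = 1) (hw : ‖w‖ = 1)
    (hxN : ⟪x, N⟫ = 0) (hyw : ⟪y, w⟫ = 0) (hs : ⟪x, y⟫ < 1) :
    0 ≤ Vale.Agent.P224.UE.W9 1 (141836474562685 / 281474976710656) (-(822950990779441 / 281474976710656)) (30924745250083 / 17592186044416) (-(175978522084427 / 281474976710656)) (58874994526613 / 281474976710656) (0) (50621151315039 / 140737488355328) (0)
        (dv x N y w e)
      + hsum 15 (rlH 1101334057103371521333657600 rows) (dv x N y w e)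
      - ((1044679973625 / 17592186044416) * RF (-(217327 / 32400)) 115 (5479 / 2000) (dv x N y w e)
        + (0) * dv x N y w e 0 ^ 3
        + (4237389351733 / 140737488355328) * ((dv x N y w e 1 - dv x N y w e 2) / 2) ^ 2) := by
  have h := hposS e x N y w he hx hN hy hw hxN hyw hs
  unfold XS at h
  linarith

/-- **The law with its values kept.** -/
theorem hlaw_s {Θ u r : ℝ} (h1 : 6 / 5 ≤ Θ) (h2 : Θ ≤ 14379991 / 10000000) (hu : 0 ≤ u)
    (hT : Θ ^ 2 * u ≤ 1) (hr1 : u ^ 2 ≤ r) (hr2 : r ≤ u) :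
    Θ * (1 + ((141836474562685 / 281474976710656) + (-(822950990779441 / 281474976710656)) + (30924745250083 / 17592186044416)) * u + ((-(175978522084427 / 281474976710656)) + (50621151315039 / 140737488355328)) * r + ((58874994526613 / 281474976710656) + (0)) * u ^ 2
      + (0) * ((u - r) / ((15 : ℕ) + 1))) + KH 15 * hval 15 (rlH 1101334057103371521333657600 rows) u r
      ≤ Θ * (59 / 2000000 - 10223 / 100000 * u + 20913 / 100000 * u ^ 2) := by
  have hb := div_pi_bounds (N := 67108864 / 429) (by norm_num)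
  have hK : KH 15 = (67108864 / 429) / Real.pi := by
    have h0 := KHn_15
    have := Real.pi_pos
    rw [h0]
    try field_simp
  rw [← hK] at hb
  rw [hval_rows]
  have h := law_two (Tm := 14379991 / 10000000) (K := KH 15) (Q0 := -(31752137171875 / 1099479192182980608)) (Q1 := (189568285203125 / 11727778049951793152)) (Q2 := (269762818890625 / 35183334149855379456))
    (P1 := (-(205134642377991715 / 366493064060993536))) (P2 := (-(1167753428974203125 / 4397916768731922432))) (P3 := (158322611148605 / 4397916768731922432))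
    hb.1 hb.2 (by norm_num) (by norm_num) (by norm_num) (by norm_num)
    (by norm_num) (by norm_num) (by norm_num)
    (fun T hT1 hT2 => quintic_neg (by norm_num) (by norm_num) (by norm_num) (by norm_num)
      (by norm_num) (by norm_num) (by norm_num) (le_of_eq rfl) (le_of_eq rfl) (le_of_eq rfl)
      (le_of_eq rfl) (le_of_eq rfl) (le_of_eq rfl) hT1 hT2)
    (fun T hT1 hT2 => quintic_neg (by norm_num) (by norm_num) (by norm_num) (by norm_num)
      (by norm_num) (by norm_num) (by norm_num) (le_of_eq rfl) (le_of_eq rfl) (le_of_eq rfl)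
      (le_of_eq rfl) (le_of_eq rfl) (le_of_eq rfl) hT1 hT2)
    (fun T hT1 hT2 => quintic_neg (by norm_num) (by norm_num) (by norm_num) (by norm_num)
      (by norm_num) (by norm_num) (by norm_num) (le_of_eq rfl) (le_of_eq rfl) (le_of_eq rfl)
      (le_of_eq rfl) (le_of_eq rfl) (le_of_eq rfl) hT1 hT2)
    (fun T hT1 hT2 => quintic_neg (by norm_num) (by norm_num) (by norm_num) (by norm_num)
      (by norm_num) (by norm_num) (by norm_num) (le_of_eq rfl) (le_of_eq rfl) (le_of_eq rfl)
      (le_of_eq rfl) (le_of_eq rfl) (le_of_eq rfl) hT1 hT2)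
    h1 h2 hu hT hr1 hr2
  refine le_of_sub_nonpos ?_
  refine (le_of_eq ?_).trans (mul_nonpos_of_nonneg_of_nonpos
    (by norm_num : (0 : ℝ) ≤ 1 - 59 / 2000000) h.le)
  ring

/-- **The law for large volumes**, from a value of `u` on. -/
theorem hlaw_g {Θ u r u0 : ℝ} (h1 : 23 / 16 ≤ Θ) (h2 : Θ ≤ 14379991 / 10000000) (h0 : 0 ≤ u0)
    (h0' : u0 ≤ 1 / 1000) (hu : u0 ≤ u)
    (hT : Θ ^ 2 * u ≤ 1) (hr1 : u ^ 2 ≤ r) (hr2 : r ≤ u) :
    Θ * (1 + ((141836474562685 / 281474976710656) + (-(822950990779441 / 281474976710656)) + (30924745250083 / 17592186044416)) * u + ((-(175978522084427 / 281474976710656)) + (50621151315039 / 140737488355328)) * r + ((58874994526613 / 281474976710656) + (0)) * u ^ 2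
      + (0) * ((u - r) / ((15 : ℕ) + 1))) + KH 15 * hval 15 (rlH 1101334057103371521333657600 rows) u r
      ≤ Θ * (59 / 2000000 - 10223 / 100000 * u0 + 20913 / 100000 * u0 ^ 2) := by
  have hu' : 0 ≤ u := h0.trans hu
  refine (hlaw_s (le_trans (by norm_num) h1) h2 hu' hT hr1 hr2).trans
    (mul_le_mul_of_nonneg_left ?_ (le_trans (by norm_num) h1))
  have h3 : (23 / 16 : ℝ) ^ 2 * u ≤ Θ ^ 2 * u :=
    mul_le_mul_of_nonneg_right (pow_le_pow_left₀ (by norm_num) h1 2) hu'
  have hum : u ≤ 121 / 250 := by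
    norm_num at h3 ⊢
    linarith
  have h4 : (0 : ℝ) ≤ 10223 / 100000 - 20913 / 100000 * (u + u0) := by
    norm_num at hum h0' ⊢
    linarith
  have h5 := mul_nonneg (sub_nonneg.2 hu) h4
  nlinarith [h5]

end Vale.Agent.P224.PO.R15s
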